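import Vale.Agent.P272.K.AMP.NEF.DDOf
import Vale.Agent.P272.K.AMP.NF.H977.BigFrom
import Vale.Agent.P272.K.AMP.NF.H977.Final
import Vale.Agent.P272.K.AMP.Main.Final

/-!
# Nonpositive holomorphic sectional curvature of a Hermitian metric implies that `K_X` is nef
-/

open scoped Manifold ContDiff ComplexOrder Topology
open Complex Set Filter MeasureTheory

set_option linter.all false

noncomputable section

namespace Vale.Agent.P272.K.AMP.NEF

open Main (Pos)

section
variable {n m : ℕ} {X Y : Type} [TopologicalSpace X] [TopologicalSpace Y]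
  [ChartedSpace (Cm n) X] [ChartedSpace (Cm m) Y]

attribute [local instance] Prod.prodCS

/-- restriction of `K + s[w] > 0` to a slice -/
theorem slice_pos [IsManifold 𝓘(ℂ, Cm n) ω X] [IsManifold 𝓘(ℂ, Cm m) ω Y] (y₀ : Y)
    {w : Chart n X → Cm n → Matrix (Fin n) (Fin n) ℂ}
    {w' : Chart m Y → Cm m → Matrix (Fin m) (Fin m) ℂ} {s : ℝ}
    (H : Pos (Prod.pm w w') s) : Pos w s := by
  obtain ⟨Φ, hΦ, hpos⟩ := H
  have hy : At (chartAt (Cm m) y₀) y₀ := ⟨chart_mem_atlas _ _, mem_chart_source _ _⟩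
  set c : Cm m := chartAt (Cm m) y₀ y₀ with hc
  refine ⟨fun e z => Φ (Prod.pc e (chartAt (Cm m) y₀)) (Prod.glue z c), ⟨fun e x hx => ?_,
    fun e e' x hx hx' => ?_⟩, fun e x hx => ?_⟩
  · have h1 := hΦ.smooth _ _ (Prod.at_pc hx hy)
    have h2 : (Prod.pc e (chartAt (Cm m) y₀)) (x, y₀) = Prod.glue (e x) c := rfl
    rw [h2] at h1
    exact ContDiffAt.comp (e x) (g := Φ (Prod.pc e (chartAt (Cm m) y₀))) h1
      (Prod.contDiff_glue contDiffAt_id contDiffAt_const)
  · have h1 := hΦ.change _ _ _ (Prod.at_pc hx hy) (Prod.at_pc hx' hy)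
    rw [Prod.jacM_pc, Prod.bd_det] at h1
    simp only [jacM_self hy, Matrix.det_one, mul_one] at h1
    exact h1
  · have h1 := hpos _ _ (Prod.at_pc hx hy)
    have h0 := hΦ.smooth _ _ (Prod.at_pc hx hy)
    have h2 : (Prod.pc e (chartAt (Cm m) y₀)) (x, y₀) = Prod.glue (e x) c := rfl
    rw [Prod.pm_pc (p := (x, y₀)) hx hy] at h1
    rw [h2] at h1 h0
    rw [Prod.cHess_slice (f := Φ (Prod.pc e (chartAt (Cm m) y₀))) c
      (h0.of_le (by exact WithTop.coe_le_coe.2 le_top))]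
    have h3 := h1.submatrix (Fin.castAdd_injective n m)
    have h4 : (cHess (Φ (Prod.pc e (chartAt (Cm m) y₀))) (Prod.glue (e x) c) +
        (s : ℂ) • Prod.bm (w e) (w' (chartAt (Cm m) y₀)) (Prod.glue (e x) c)).submatrix
          (Fin.castAdd m) (Fin.castAdd m) =
        (cHess (Φ (Prod.pc e (chartAt (Cm m) y₀))) (Prod.glue (e x) c)).submatrix
          (Fin.castAdd m) (Fin.castAdd m) + (s : ℂ) • w e (e x) := by
      ext i j
      simp [Prod.bm]
    rwa [h4] at h3

end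

/-- `K_X + s[w] > 0` for all `s > 0`, dimension `≥ 3` -/
theorem pos_of_nonpos3 {n : ℕ} (hn : 3 ≤ n) {X : Type} [TopologicalSpace X] [T2Space X]
    [CompactSpace X] [ConnectedSpace X] [ChartedSpace (Cm n) X] [IsManifold 𝓘(ℂ, Cm n) ω X]
    {w h : Chart n X → Cm n → Matrix (Fin n) (Fin n) ℂ} (hw : IsKahler w) (hh : IsHermitian h)
    (hneg : NonposHSC h) {s : ℝ} (hs : 0 < s) : Pos w s :=
  Main.pos_of_blocks hn hw hs.le (Main.bigFrom_of_nonpos hw hh hneg hs)
    (ddMainS_of_nonpos (by omega) hw hh hneg hs) (Main.poleBlock_all (by omega) X)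
    (Main.expInt_all n X)

/-- `K_X + s[w] > 0` for all `s > 0` -/
theorem pos_of_nonpos {n : ℕ} (hn : 1 ≤ n) {X : Type} [TopologicalSpace X] [T2Space X]
    [CompactSpace X] [ConnectedSpace X] [ChartedSpace (Cm n) X] [IsManifold 𝓘(ℂ, Cm n) ω X]
    {w h : Chart n X → Cm n → Matrix (Fin n) (Fin n) ℂ} (hw : IsKahler w) (hh : IsHermitian h)
    (hneg : NonposHSC h) {s : ℝ} (hs : 0 < s) : Pos w s := by
  letI : ChartedSpace (Cm (n + n)) (X × X) := Prod.prodCS n n X X
  haveI : IsManifold 𝓘(ℂ, Cm (n + n)) ω (X × X) := Prod.isManifold_prod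
  letI : ChartedSpace (Cm (n + (n + n))) (X × (X × X)) := Prod.prodCS n (n + n) X (X × X)
  haveI : IsManifold 𝓘(ℂ, Cm (n + (n + n))) ω (X × (X × X)) := Prod.isManifold_prod
  have h2 := Prod.pm_hermitian hh hh
  have w2 := Prod.pm_kahler hw hw
  have n2 := Prod.pm_nonposHSC hh hh hneg hneg
  have h3 := Prod.pm_hermitian hh h2
  have w3 := Prod.pm_kahler hw w2
  have n3 := Prod.pm_nonposHSC hh h2 hneg n2
  obtain ⟨x0⟩ := (inferInstance : Nonempty X)
  exact slice_pos (x0, x0) (pos_of_nonpos3 (by omega) w3 h3 n3 hs)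

/-- **NEF**: a compact connected Kähler manifold with a Hermitian metric of nonpositive holomorphic
sectional curvature has nef canonical bundle. -/
theorem nef_of_nonpos {n : ℕ} (hn : 1 ≤ n) {X : Type} [TopologicalSpace X] [T2Space X]
    [CompactSpace X] [ConnectedSpace X] [ChartedSpace (Cm n) X] [IsManifold 𝓘(ℂ, Cm n) ω X]
    {w h : Chart n X → Cm n → Matrix (Fin n) (Fin n) ℂ} (hw : IsKahler w) (hh : IsHermitian h)
    (hneg : NonposHSC h) : NefCanonical w 0 :=
  Main.nef_of_pos fun s hs => pos_of_nonpos hn hw hh hneg hs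

end Vale.Agent.P272.K.AMP.NEF

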