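import Vale.Agent.P272.K.AMP.NEF.Weak
import Vale.Agent.P272.K.AMP.NF.H291.N5
import Vale.Agent.P272.K.AMP.Main.Assembly

/-!
# The weighted trace estimate for twisted metrics and nonpositive holomorphic sectional curvature
-/

open scoped Manifold ContDiff ComplexOrder Topology
open Complex Set Filter MeasureTheory

set_option linter.all false

noncomputable section

namespace Vale.Agent.P272.K.AMP.NEF

open INT (IsDensity intX part Part)
open DD

/-- the final arithmetic -/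
lemma arith {k Cδ K δ I0 I1 I2 J HH QD : ℝ} (hk : 0 < k) (hδ : δ = k / 4) (hK : 0 ≤ K)
    (hJ : 0 ≤ J) (k1 : k * I2 - 2 * I1 ≤ QD) (k2 : QD + 2 * K * J ≤ δ * I2 + Cδ * HH)
    (k3 : I1 ≤ δ * I2 + δ⁻¹ * I0) :
    I2 ≤ 4 / k * (2 * δ⁻¹) * I0 + 4 / k * Cδ * HH := by
  have hKJ : 0 ≤ 2 * K * J := by positivity
  have h1 : k * I2 ≤ 3 * δ * I2 + 2 * (δ⁻¹ * I0) + Cδ * HH := by linarith
  have h2 : k / 4 * I2 ≤ 2 * (δ⁻¹ * I0) + Cδ * HH := by
    rw [hδ] at h1 ⊢
    linarith
  have h3 : I2 = 4 / k * (k / 4 * I2) := by field_simp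
  rw [h3]
  have h4 : 0 ≤ 4 / k := by positivity
  have := mul_le_mul_of_nonneg_left h2 h4
  linarith

variable {n : ℕ} {X : Type} [TopologicalSpace X] [ChartedSpace (Cm n) X]
  [IsManifold 𝓘(ℂ, Cm n) ω X] [T2Space X] [CompactSpace X]
  {w h : Chart n X → Cm n → Matrix (Fin n) (Fin n) ℂ}

/-- **Steps 5 and 6 for twisted metrics** `Ric(g) ≥ -g + s w`, `s > 0`, if `HSC(h) ≤ 0`. -/
theorem ddMainS_of_nonpos (hn : 2 ≤ n) (hw : IsKahler w) (hh : IsHermitian h)
    (hneg : NonposHSC h) {s : ℝ} (hs : 0 < s) : Main.DDMainS n X w s := by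
  obtain ⟨Cw, hCw0, hCw⟩ := exists_comparison hh hw.toIsHermitian
  obtain ⟨Ch, hCh0, hCh⟩ := exists_comparison hw.toIsHermitian hh
  have hn1 : (1 : ℝ) ≤ n := by exact_mod_cast (show 1 ≤ n by omega)
  have hn2 : (0 : ℝ) ≤ (n : ℝ) - 2 := by
    have : (2 : ℝ) ≤ n := by exact_mod_cast hn
    linarith
  set k : ℝ := 2 * s / (Ch * n) with hk
  have hk0 : 0 < k := by positivity
  set K : ℝ := (n : ℝ) - 2 with hK
  set δ : ℝ := k / 4 with hδ
  have hδ0 : 0 < δ := by positivity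
  obtain ⟨Cδ, hCδ, hcore⟩ := N5.core hn hw hh hδ0
  refine ⟨Cw ^ 2 * (4 / k * (2 * δ⁻¹) + 4 / k * Cδ) + 1, by positivity, ?_⟩
  intro g hg hric B hB hB0 hB1
  have hgH := hg.toIsHermitian
  set ρ : X → ℝ := fun x => ((B x)⁻¹) ^ (n - 2) with hρdef
  have hρ : SmoothFn (n := n) ρ := sm_inv_pow hB hB0 (n - 2)
  have hρpos : ∀ x, 0 < ρ x := fun x => by
    have := hB0 x
    positivity
  have hρ0 : ∀ x, 0 ≤ ρ x := fun x => (hρpos x).le
  have hρc : Continuous ρ := INT.SmoothFn.continuous hρ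
  have hT : SmoothFn (n := n) (trX g h) := smoothFn_trX hgH hh.isForm hh.smooth
  have hTw : SmoothFn (n := n) (trX g w) := smoothFn_trX hgH hw.isForm hw.smooth
  have hTc := INT.SmoothFn.continuous hT
  have hTwc := INT.SmoothFn.continuous hTw
  have hρT : Continuous fun x => ρ x * trX g h x ^ 2 := hρc.mul (hTc.pow 2)
  have hT0 : ∀ x, 0 ≤ trX g h x := fun x => by
    have hx := at_chartAt (n := n) x
    rw [trX_eq hgH hh.isForm hx]
    exact tr_nonneg (hgH.posDef _ x hx) (hh.posDef _ x hx).posSemidef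
  have hQ0 : ∀ x, 0 ≤ Qf g B x := fun x =>
    div_nonneg (gradX_self_nonneg hgH.posDef B x) (hB0 x).le
  set HH := intX (fun (e : Chart n X) z => ((B (e.symm z))⁻¹) ^ n * sqE g (Hf g B) e z *
    (g e z).det.re) with hHH
  set J := IX g (fun x => ((B x)⁻¹) ^ (n - 1) * (Qf g B x * trX g h x)) with hJ
  set I0 := IX g ρ with hI0
  set I1 := IX g (fun x => ρ x * trX g h x) with hI1
  set I2 := IX g (fun x => ρ x * trX g h x ^ 2) with hI2
  set G0 := IX g (fun x => ((B x)⁻¹) ^ (n - 1)) with hG0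
  have j0 : 0 ≤ J := IX_nonneg hgH fun x => by
    have h1 := hB0 x
    have h2 := hQ0 x
    have h3 := hT0 x
    positivity
  have i0 : 0 ≤ I0 := IX_nonneg hgH hρ0
  have n2 : 0 ≤ HH := INT.intX_nonneg fun e x hx => by
    have hG := hgH.posDef e x hx
    have hdet : 0 < (g e (e x)).det.re := (Complex.lt_def.1 hG.det_pos).1
    have hHfH : (Hf g B e (e x)).IsHermitian := by
      unfold Hf
      refine Matrix.IsHermitian.sub (cHess_isHermitian ((hB e x hx).of_le (by norm_cast))) ?_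
      exact hG.isHermitian.smul (by simp only [IsSelfAdjoint, Complex.star_def, Complex.conj_ofReal])
    have h1 : 0 ≤ sqE g (Hf g B) e (e x) := pr_self_nonneg hG hHfH
    have h2 := hB0 (e.symm (e x))
    positivity
  -- the weighted inequality
  have k1 : k * I2 - 2 * I1 ≤ intX (Qd g h ρ) := by
    have h1 := wi (n := n) (by omega) hg hh hneg hs.le hCh0 hCh hric hρ hρ0
    refine le_trans (le_of_eq ?_) h1
    have s1 := IX_add hgH (f := fun x => k * (ρ x * trX g h x ^ 2))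
      (f' := fun x => (-2) * (ρ x * trX g h x))
      (continuous_const.mul hρT) (continuous_const.mul (hρc.mul hTc))
    have s2 : (fun x => ρ x * (2 * s / (Ch * n) * trX g h x ^ 2 - 2 * trX g h x)) =
        fun x => k * (ρ x * trX g h x ^ 2) + (-2) * (ρ x * trX g h x) := by
      funext x; rw [hk]; ring
    rw [s2, s1, IX_const_mul, IX_const_mul]
    ring
  -- core
  have k2 := hcore g hg B hB hB0
  -- the first moment
  have k3 : I1 ≤ δ * I2 + δ⁻¹ * I0 := by
    have s1 := IX_add hgH (f := fun x => δ * (ρ x * trX g h x ^ 2)) (f' := fun x => δ⁻¹ * ρ x)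
      (continuous_const.mul hρT) (continuous_const.mul hρc)
    rw [hI2, hI0, ← IX_const_mul, ← IX_const_mul, ← s1]
    refine IX_mono hgH (hρc.mul hTc) ((continuous_const.mul hρT).add (continuous_const.mul hρc))
      fun x => ?_
    exact N5.alg2 hδ0 (hρ0 x)
  have k8 : I2 ≤ 4 / k * (2 * δ⁻¹) * I0 + 4 / k * Cδ * HH := arith hk0 hδ hn2 j0 k1 k2 k3
  have i4 : I0 ≤ G0 := by
    refine IX_mono hgH hρc (INT.SmoothFn.continuous (sm_inv_pow hB hB0 (n - 1))) fun x => ?_
    exact pow_le_pow_right₀ ((one_le_inv₀ (hB0 x)).2 (hB1 x)) (by omega)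
  have i5 : IX g (fun x => ρ x * trX g w x ^ 2) ≤ Cw ^ 2 * I2 := by
    rw [hI2, ← IX_const_mul]
    refine IX_mono hgH (hρc.mul (hTwc.pow 2)) (continuous_const.mul hρT) fun x => ?_
    have hx := at_chartAt (n := n) x
    set e := chartAt (Cm n) x
    have hG := hgH.posDef e x hx
    have eT : trX g h x = tr (g e (e x)) (h e (e x)) := trX_eq hgH hh.isForm hx
    have eTw : trX g w x = tr (g e (e x)) (w e (e x)) := trX_eq hgH hw.isForm hx
    have h1 : 0 ≤ tr (g e (e x)) (w e (e x)) := tr_nonneg hG (hw.posDef e x hx).posSemidef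
    have h2 : tr (g e (e x)) (w e (e x)) ≤ Cw * tr (g e (e x)) (h e (e x)) := by
      have := tr_nonneg hG (hCw e x hx)
      rw [DD.tr_sub, DD.tr_smul] at this
      linarith
    rw [eT, eTw]
    have h3 : tr (g e (e x)) (w e (e x)) ^ 2 ≤ Cw ^ 2 * tr (g e (e x)) (h e (e x)) ^ 2 := by
      rw [← mul_pow]
      exact pow_le_pow_left₀ h1 h2 2
    have := mul_le_mul_of_nonneg_left h3 (hρ0 x)
    linarith
  exact N5.arith2 (by positivity) (by positivity) (by positivity) i0 n2 i4 k8 i5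

end Vale.Agent.P272.K.AMP.NEF
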