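import Vale.Agent.P272.K.AMP.NF.H86.N1
import Vale.Agent.P272.K.AMP.DD.Point
import Vale.Agent.P272.K.AMP.Green2
import Vale.Agent.P272.K.AMP.Main.Step0
import Vale.Agent.P272.K.T4.L3

/-!
# The weighted inequality for twisted metrics and nonpositive holomorphic sectional curvature

If `Ric(g) ≥ -g + s w` and `HSC(h) ≤ 0`, the twist replaces the negativity of the curvature:
`∫ ρ (k T² - 2T) dv_g ≤ ∫ (T Δρ + <h, i∂∂̄ρ>) dv_g`, `T = tr_g h`, `k = 2s/(C_h n)`, `h ≤ C_h w`.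
-/

open scoped Manifold ContDiff ComplexOrder Topology
open Complex Set Filter MeasureTheory

set_option linter.all false

noncomputable section

namespace Vale.Agent.P272.K.AMP.NEF

open INT (IsDensity intX part Part)
open T4 (Rl2 Eg Pq Rq Tr dt)
open DD
open Main

variable {n : ℕ} {X : Type} [TopologicalSpace X] [ChartedSpace (Cm n) X]
  {w g h : Chart n X → Cm n → Matrix (Fin n) (Fin n) ℂ}

/-- `tr(g⁻¹h)² ≤ n <h,h>` -/
lemma tr_sq_le (G H : Matrix (Fin n) (Fin n) ℂ) (hG : G.PosDef) (hH : H.IsHermitian) :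
    tr G H ^ 2 ≤ n * pr G H H := by
  rcases Nat.eq_zero_or_pos n with h0 | h0
  · subst h0
    have : tr G H = 0 := by unfold tr; simp [Matrix.trace]
    rw [this]; simp
  have hn : (0 : ℝ) < n := by exact_mod_cast h0
  set t := tr G H with ht
  have h1 : (H - ((t / n : ℝ) : ℂ) • G).IsHermitian :=
    hH.sub (isHermitian_smul_ofReal hG.isHermitian _)
  have h2 := pr_self_nonneg hG h1
  rw [pr_sub_right, pr_sub_left, pr_sub_left, pr_smul_right, pr_smul_left, pr_smul_right,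
    pr_smul_left, pr_G_left hG, pr_G_right hG, pr_G_left hG, tr_G hG, ← ht] at h2
  have h3 : pr G H H - t / n * t - (t / n * t - t / n * (t / n * n)) = pr G H H - t ^ 2 / n := by
    field_simp; ring
  have h4 : 0 ≤ pr G H H - t ^ 2 / n := by
    rw [← h3]; exact h2
  have h5 : t ^ 2 / n ≤ pr G H H := by linarith
  rwa [div_le_iff₀ hn, mul_comm] at h5

/-- the Ricci term with the twist -/
lemma rl2_ge (hn : 1 ≤ n) {G H W R : Matrix (Fin n) (Fin n) ℂ} {s C : ℝ} (hG : G.PosDef)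
    (hH : H.PosDef) (hs : 0 ≤ s) (hC0 : 0 < C) (hC : ((C : ℂ) • W - H).PosSemidef)
    (hR : (R + G - (s : ℂ) • W).PosSemidef) :
    s / (C * n) * tr G H ^ 2 - tr G H ≤ (G⁻¹ * H * G⁻¹ * R).trace.re := by
  have hn' : (1 : ℝ) ≤ n := by exact_mod_cast hn
  have e1 : (G⁻¹ * H * G⁻¹ * R).trace.re = pr G H R := by
    unfold pr; simp only [Matrix.mul_assoc]
  rw [e1]
  have h1 := pr_nonneg hG hH.posSemidef hR
  rw [pr_sub_right, pr_add_right, pr_smul_right, pr_G_right hG] at h1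
  have h2 := pr_nonneg hG hH.posSemidef hC
  rw [pr_sub_right, pr_smul_right] at h2
  have h3 := tr_sq_le G H hG hH.isHermitian
  have h4 : s / (C * n) * tr G H ^ 2 ≤ s * pr G H W := by
    have h5 : tr G H ^ 2 ≤ n * (C * pr G H W) := h3.trans
      (mul_le_mul_of_nonneg_left (by linarith) (by linarith))
    have h6 : 0 ≤ s / (C * n) := by positivity
    calc s / (C * n) * tr G H ^ 2 ≤ s / (C * n) * (n * (C * pr G H W)) :=
          mul_le_mul_of_nonneg_left h5 h6
      _ = s * pr G H W := by field_simp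
  linarith

variable [IsManifold 𝓘(ℂ, Cm n) ω X] [T2Space X] [CompactSpace X]

/-- `Q2 ≥ 0` for nonpositive holomorphic sectional curvature -/
lemma Q2_nonneg (hg : IsHermitian g) (hh : IsHermitian h) (hneg : NonposHSC h) {e : Chart n X}
    {x : X} (hx : At e x) : 0 ≤ P1.Q2 (g e) (h e) (e x) := by
  obtain ⟨χ, hχ⟩ := T4.exists_wt
  have hc : 0 < T4.c0 n χ := T4.c0_pos n hχ
  have h1 := T4.Eg_Q2 hχ (T4.mom4_c0 hχ) hg hh hx
  have h3 : 0 < (g e (e x)).det.re := (INT.posDef_det_re (hg.posDef e x hx)).1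
  have h2 : 0 ≤ Eg χ g (fun e z w => Pq g h e z w + Rq h e z w) e (e x) :=
    integral_nonneg fun v => mul_nonneg (mul_nonneg (add_nonneg (T4.Pq_nonneg g hh hx v)
      (T4.Rq_nonneg hneg hx v)) (hχ.nonneg _)) h3.le
  rw [h1] at h2
  exact nonneg_of_mul_nonneg_right h2 hc

/-- **the weighted inequality** -/
theorem wi (hn : 1 ≤ n) (hg : IsKahler g) (hh : IsHermitian h) (hneg : NonposHSC h) {s C : ℝ}
    (hs : 0 ≤ s) (hC0 : 0 < C)
    (hC : ∀ e x, At e x → ((C : ℂ) • w e (e x) - h e (e x)).PosSemidef) (hric : RicGeS w s g)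
    {ρ : X → ℝ} (hρ : SmoothFn (n := n) ρ) (hρ0 : ∀ x, 0 ≤ ρ x) :
    IX g (fun x => ρ x * (2 * s / (C * n) * trX g h x ^ 2 - 2 * trX g h x)) ≤
      intX (Qd g h ρ) := by
  have hgH := hg.toIsHermitian
  have h1 := NF.intX_weak_eq_weighted hg hh hρ
  rw [← h1]
  have hρc : Continuous ρ := INT.SmoothFn.continuous hρ
  have hT : SmoothFn (n := n) (trX g h) := smoothFn_trX hgH hh.isForm hh.smooth
  have hTc := INT.SmoothFn.continuous hT
  have hc : Continuous fun x => ρ x * (2 * s / (C * n) * trX g h x ^ 2 - 2 * trX g h x) := by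
    fun_prop
  have k0 : T4.ContD (X := X) (n := n) fun e z => ρ (e.symm z) := NF.contD_fn hρ
  have kR : T4.ContD (X := X) fun e z => Rl2 (g e) (h e) z := T4.contD_Rl2 hgH hh
  have kd : T4.ContD (X := X) (dt g) := T4.contD_dt hgH
  obtain ⟨χ, hχ⟩ := T4.exists_wt
  have hc0 : 0 < T4.c0 n χ := T4.c0_pos n hχ
  have hPR : T4.CTFun fun e z w => Pq g h e z w + Rq h e z w :=
    ((T4.Pq_smTFun hgH hh).add (T4.Rq_smTFun hh)).ctfun
  have kE : T4.ContD (X := X) fun e z =>
      Eg χ g (fun e z w => Pq g h e z w + Rq h e z w) e z * dt g e z :=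
    (T4.Eg_isDensity hχ hgH hPR).cont
  have kQ : T4.ContD (X := X) fun e z => (T4.c0 n χ)⁻¹ *
      (Eg χ g (fun e z w => Pq g h e z w + Rq h e z w) e z * dt g e z) :=
    kE.const_mul _
  have kAll : T4.ContD (X := X) fun e z => ρ (e.symm z) * ((T4.c0 n χ)⁻¹ *
      (Eg χ g (fun e z w => Pq g h e z w + Rq h e z w) e z * dt g e z) +
        2 * (Rl2 (g e) (h e) z * dt g e z)) := k0.mul (kQ.add ((kR.mul kd).const_mul 2))
  have h2 : intX (fun e z => ρ (e.symm z) * ((P1.Q2 (g e) (h e) z + 2 * Rl2 (g e) (h e) z) *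
      (g e z).det.re)) = intX (fun e z => ρ (e.symm z) * ((T4.c0 n χ)⁻¹ *
      (Eg χ g (fun e z w => Pq g h e z w + Rq h e z w) e z * dt g e z) +
        2 * (Rl2 (g e) (h e) z * dt g e z))) := by
    refine INT.intX_congr fun e x hx => ?_
    rw [T4.Eg_Q2 hχ (T4.mom4_c0 hχ) hgH hh hx]
    unfold dt
    field_simp
  rw [h2]
  refine T4.intX_mono' ((isDensity_IX hgH hc).cont) kAll fun e x hx => ?_
  have hG := hgH.posDef e x hx
  have hdet : 0 < (g e (e x)).det.re := (INT.posDef_det_re hG).1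
  have hxx : e.symm (e x) = x := e.left_inv hx.2
  have eT : trX g h x = tr (g e (e x)) (h e (e x)) := trX_eq hgH hh.isForm hx
  have hQ := Q2_nonneg hgH hh hneg hx
  have hQ2 : (T4.c0 n χ)⁻¹ * (Eg χ g (fun e z w => Pq g h e z w + Rq h e z w) e (e x) *
      dt g e (e x)) = P1.Q2 (g e) (h e) (e x) * (g e (e x)).det.re := by
    rw [T4.Eg_Q2 hχ (T4.mom4_c0 hχ) hgH hh hx]
    unfold dt
    field_simp
  rw [hQ2]
  have hR := rl2_ge hn hG (hh.posDef e x hx) hs hC0 (hC e x hx) (hric e x hx)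
  have hR' : s / (C * n) * tr (g e (e x)) (h e (e x)) ^ 2 - tr (g e (e x)) (h e (e x)) ≤
      Rl2 (g e) (h e) (e x) := hR
  simp only [hxx]
  rw [eT, mul_assoc]
  refine mul_le_mul_of_nonneg_left ?_ (hρ0 x)
  have e3 : P1.Q2 (g e) (h e) (e x) * (g e (e x)).det.re +
      2 * (Rl2 (g e) (h e) (e x) * dt g e (e x)) =
      (P1.Q2 (g e) (h e) (e x) + 2 * Rl2 (g e) (h e) (e x)) * (g e (e x)).det.re := by
    unfold dt; ring
  rw [e3]
  refine mul_le_mul_of_nonneg_right ?_ hdet.le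
  have e4 : 2 * s / (C * n) * tr (g e (e x)) (h e (e x)) ^ 2 =
      2 * (s / (C * n) * tr (g e (e x)) (h e (e x)) ^ 2) := by ring
  linarith

end Vale.Agent.P272.K.AMP.NEF
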